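import Mathlib

/-! Large sets without square differences. -/

namespace Vale.Agent.P042

open Finset

/-- A set of residues with a height that increases along square differences. -/
def HS (M T s : ℕ) : Prop :=
  ∃ (A : Finset ℕ) (h : ℕ → ℕ), (∀ x ∈ A, x < M ∧ h x < T) ∧ A.card = s ∧
    ∀ x ∈ A, ∀ y ∈ A, ∀ n : ℕ, x ≡ y + n ^ 2 [MOD M] → x ≠ y → h y < h x

theorem HS.mono {M T T' s : ℕ} (h : HS M T s) (hT : T ≤ T') : HS M T' s := by
  obtain ⟨A, f, h1, h2, h3⟩ := h
  exact ⟨A, f, fun x hx => ⟨(h1 x hx).1, (h1 x hx).2.trans_le hT⟩, h2, h3⟩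

theorem HS.of_list (q t : ℕ) (L : List (ℕ × ℕ)) (hq : 0 < q) (h0 : (L.map Prod.fst).Nodup)
    (h1 : ∀ x ∈ L.map Prod.fst, x < q ∧ (L.lookup x).getD 0 < t)
    (h2 : ∀ x ∈ L.map Prod.fst, ∀ y ∈ L.map Prod.fst, ∀ n ∈ List.range q,
      x = (y + n * n) % q → x ≠ y → (L.lookup y).getD 0 < (L.lookup x).getD 0) :
    HS q t L.length := by
  refine ⟨(L.map Prod.fst).toFinset, fun x => (L.lookup x).getD 0, by simpa using h1,
    by rw [List.toFinset_card_of_nodup h0, List.length_map], fun x hx y hy n e => ?_⟩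
  rw [List.mem_toFinset] at hx hy
  refine h2 x hx y hy (n % q) (List.mem_range.2 (Nat.mod_lt _ hq)) ?_
  rw [← Nat.mod_eq_of_lt (h1 x hx).1, e, sq]
  exact (((Nat.mod_modEq n q).mul (Nat.mod_modEq n q)).add_left y).symm

theorem card_digits {A B : Finset ℕ} {q : ℕ} (h : ∀ x ∈ A, x < q) :
    ((A ×ˢ B).image fun p => p.1 + q * p.2).card = A.card * B.card := by
  rw [card_image_of_injOn, card_product]
  rintro ⟨a, b⟩ hp ⟨c, d⟩ hp' e
  have h1 := h a (mem_product.1 hp).1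
  have h2 := h c (mem_product.1 hp').1
  have e1 := congrArg (· % q) e
  simp only [Nat.add_mul_mod_self_left, Nat.mod_eq_of_lt h1, Nat.mod_eq_of_lt h2] at e1
  subst e1
  simpa [show q ≠ 0 by omega] using e

theorem HS.sq {q t s : ℕ} (h : HS q t s) (hq : Squarefree q) : HS (q ^ 2) t (s * q) := by
  obtain ⟨A, f, h1, rfl, h3⟩ := h
  refine ⟨(A ×ˢ range q).image fun p => p.1 + q * p.2, fun x => f (x % q), ?_,
    by rw [card_digits fun x hx => (h1 x hx).1, card_range], ?_⟩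
  · simp only [mem_image, mem_product, mem_range]
    rintro _ ⟨⟨a, b⟩, ⟨ha, hb⟩, rfl⟩
    have := h1 a ha
    simp only [Nat.add_mul_mod_self_left, Nat.mod_eq_of_lt this.1] at *
    exact ⟨by nlinarith, this.2⟩
  · simp only [mem_image, mem_product, mem_range]
    rintro _ ⟨⟨a, b⟩, ⟨ha, hb⟩, rfl⟩ _ ⟨⟨c, d⟩, ⟨hc, hd⟩, rfl⟩ n e ne
    have h4 := h1 a ha
    have h5 := h1 c hc
    simp only [Nat.add_mul_mod_self_left, Nat.mod_eq_of_lt h4.1, Nat.mod_eq_of_lt h5.1] at *
    have e1 : a ≡ c + n ^ 2 [MOD q] := by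
      have := e.of_dvd (dvd_pow_self q two_ne_zero)
      rw [add_right_comm] at this
      simpa [Nat.ModEq] using this
    refine h3 a ha c hc n e1 fun ac => ne ?_
    subst ac
    have e2 : q ∣ n := (hq.dvd_pow_iff_dvd two_ne_zero).1
      ((Nat.modEq_zero_iff_dvd).1 (Nat.ModEq.add_left_cancel' a (by simpa using e1.symm)))
    have e3 := e.trans (((Nat.modEq_zero_iff_dvd).2 (pow_dvd_pow_of_dvd e2 2)).add_left _)
    exact e3.eq_of_lt_of_lt (by nlinarith) (by nlinarith)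

theorem HS.lex {m t s M T S : ℕ} (h : HS (m ^ 2) t s) (h' : HS M T S) :
    HS (m ^ 2 * M) (t * T) (s * S) := by
  obtain ⟨A, f, h1, rfl, h3⟩ := h
  obtain ⟨B, g, g1, rfl, g3⟩ := h'
  refine ⟨(A ×ˢ B).image fun p => p.1 + m ^ 2 * p.2,
    fun x => f (x % m ^ 2) * T + g (x / m ^ 2), ?_, card_digits fun x hx => (h1 x hx).1, ?_⟩
  · simp only [mem_image, mem_product]
    rintro _ ⟨⟨a, b⟩, ⟨ha, hb⟩, rfl⟩
    have h4 := h1 a ha
    have h5 := g1 b hb
    simp only [Nat.add_mul_mod_self_left, Nat.mod_eq_of_lt h4.1,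
      Nat.add_mul_div_left _ _ (Nat.zero_lt_of_lt h4.1), Nat.div_eq_of_lt h4.1, zero_add] at *
    exact ⟨by nlinarith, by nlinarith⟩
  · simp only [mem_image, mem_product]
    rintro _ ⟨⟨a, b⟩, ⟨ha, hb⟩, rfl⟩ _ ⟨⟨c, d⟩, ⟨hc, hd⟩, rfl⟩ n e ne
    have h4 := h1 a ha
    have h5 := h1 c hc
    have m0 := Nat.zero_lt_of_lt h4.1
    simp only [Nat.add_mul_mod_self_left, Nat.mod_eq_of_lt h4.1, Nat.mod_eq_of_lt h5.1,
      Nat.add_mul_div_left _ _ m0, Nat.div_eq_of_lt h4.1, Nat.div_eq_of_lt h5.1, zero_add] at *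
    have e1 : a ≡ c + n ^ 2 [MOD m ^ 2] := by
      have := e.of_dvd (dvd_mul_right _ _)
      rw [add_right_comm] at this
      simpa [Nat.ModEq] using this
    by_cases ac : a = c
    · subst ac
      obtain ⟨k, rfl⟩ : m ∣ n := (Nat.pow_dvd_pow_iff two_ne_zero).1
        ((Nat.modEq_zero_iff_dvd).1 (Nat.ModEq.add_left_cancel' a (by simpa using e1.symm)))
      rw [add_assoc, mul_pow, ← mul_add] at e
      have := g3 b hb d hd k (Nat.ModEq.mul_left_cancel' m0.ne' (Nat.ModEq.add_left_cancel' a e))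
        fun bd => ne (by rw [bd])
      omega
    · have := h3 a ha c hc n e1 ac
      have := (g1 d hd).2
      nlinarith

theorem HS.pow {m t s : ℕ} (h : HS (m ^ 2) t s) (k : ℕ) : HS ((m ^ 2) ^ k) (t ^ k) (s ^ k) := by
  induction k with
  | zero => exact ⟨{0}, fun _ => 0, by simp, by simp, by simp⟩
  | succ k ih => simpa only [pow_succ'] using h.lex ih

theorem HS.crt {M T s M' T' s' : ℕ} (h : HS M T s) (h' : HS M' T' s') (co : M.Coprime M') :
    HS (M * M') (T + T') (s * s') := by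
  obtain ⟨A, f, h1, rfl, h3⟩ := h
  obtain ⟨B, g, g1, rfl, g3⟩ := h'
  have k : ∀ a ∈ A, ∀ b ∈ B, (Nat.chineseRemainder co a b : ℕ) % M = a ∧
      (Nat.chineseRemainder co a b : ℕ) % M' = b := fun a ha b hb =>
    ⟨Eq.trans (Nat.chineseRemainder co a b).2.1 (Nat.mod_eq_of_lt (h1 a ha).1),
      Eq.trans (Nat.chineseRemainder co a b).2.2 (Nat.mod_eq_of_lt (g1 b hb).1)⟩
  refine ⟨(A ×ˢ B).image fun p => (Nat.chineseRemainder co p.1 p.2 : ℕ),
    fun x => f (x % M) + g (x % M'), ?_, ?_, ?_⟩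
  · simp only [mem_image, mem_product]
    rintro _ ⟨⟨a, b⟩, ⟨ha, hb⟩, rfl⟩
    rw [(k a ha b hb).1, (k a ha b hb).2]
    exact ⟨Nat.chineseRemainder_lt_mul co _ _ (Nat.zero_lt_of_lt (h1 a ha).1).ne'
      (Nat.zero_lt_of_lt (g1 b hb).1).ne', add_lt_add (h1 a ha).2 (g1 b hb).2⟩
  · rw [card_image_of_injOn, card_product]
    rintro ⟨a, b⟩ hp ⟨c, d⟩ hp' e
    have k1 := k a (mem_product.1 hp).1 b (mem_product.1 hp).2
    have k2 := k c (mem_product.1 hp').1 d (mem_product.1 hp').2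
    dsimp only at e
    rw [e] at k1
    exact Prod.ext (k1.1.symm.trans k2.1) (k1.2.symm.trans k2.2)
  · simp only [mem_image, mem_product]
    rintro _ ⟨⟨a, b⟩, ⟨ha, hb⟩, rfl⟩ _ ⟨⟨c, d⟩, ⟨hc, hd⟩, rfl⟩ n e ne
    dsimp only at *
    rw [(k a ha b hb).1, (k a ha b hb).2, (k c hc d hd).1, (k c hc d hd).2]
    have e1 := h3 a ha c hc n ((Nat.chineseRemainder co a b).2.1.symm.trans
      ((e.of_dvd (dvd_mul_right _ _)).trans ((Nat.chineseRemainder co c d).2.1.add_right _)))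
    have e2 := g3 b hb d hd n ((Nat.chineseRemainder co a b).2.2.symm.trans
      ((e.of_dvd (dvd_mul_left _ _)).trans ((Nat.chineseRemainder co c d).2.2.add_right _)))
    by_cases ac : a = c <;> by_cases bd : b = d
    · exact absurd (by rw [ac, bd]) ne
    · have := e2 bd
      rw [ac]; omega
    · have := e1 ac
      rw [bd]; omega
    · exact add_lt_add (e1 ac) (e2 bd)

theorem HS.free {M T' s : ℕ} (h : HS M T' s) (T : ℕ) :
    ∃ A : Finset ℕ, (∀ x ∈ A, x < M * T) ∧ s * T ≤ (T + T') * A.card ∧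
      ∀ x ∈ A, ∀ y ∈ A, ∀ n : ℕ, 1 ≤ n → x ≠ y + n ^ 2 := by
  obtain ⟨A, f, h1, rfl, h3⟩ := h
  let B := (A ×ˢ range T).image fun p => p.1 + M * p.2
  let H : ℕ → ℕ := fun x => x / M + f (x % M)
  have k : ∀ x ∈ B, x < M * T ∧ x % M ∈ A ∧ H x < T + T' := by
    simp only [B, H, mem_image, mem_product, mem_range]
    rintro _ ⟨⟨a, b⟩, ⟨ha, hb⟩, rfl⟩
    have h4 := h1 a ha
    simp only [Nat.add_mul_mod_self_left, Nat.mod_eq_of_lt h4.1,
      Nat.add_mul_div_left _ _ (Nat.zero_lt_of_lt h4.1), Nat.div_eq_of_lt h4.1, zero_add] at *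
    exact ⟨by nlinarith, ha, add_lt_add hb h4.2⟩
  obtain ⟨v, hv⟩ : ∃ v, B.card ≤ (T + T') * (B.filter fun x => H x = v).card := by
    rcases (range (T + T')).eq_empty_or_nonempty with e | e
    · exact ⟨0, by
        rw [eq_empty_of_forall_notMem (s := B) fun x hx => by
          simpa [e] using mem_range.2 (k x hx).2.2]
        simp⟩
    obtain ⟨v, -, hv⟩ := exists_max_image _ (fun v => (B.filter fun x => H x = v).card) e
    refine ⟨v, ?_⟩
    rw [card_eq_sum_card_fiberwise fun x hx => mem_coe.2 (mem_range.2 (k x hx).2.2)]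
    simpa using sum_le_card_nsmul _ _ _ hv
  refine ⟨B.filter fun x => H x = v, fun x hx => (k x (mem_filter.1 hx).1).1,
    by rwa [card_digits fun x hx => (h1 x hx).1, card_range] at hv, ?_⟩
  rintro _ hx y hy n hn rfl
  rw [mem_filter] at hx hy
  have e := hx.2.trans hy.2.symm
  have e1 : y / M ≤ (y + n ^ 2) / M := Nat.div_le_div_right (Nat.le_add_right _ _)
  have e2 := h3 _ (k _ hx.1).2.1 _ (k _ hy.1).2.1 n
    ((Nat.mod_modEq _ _).trans ((Nat.mod_modEq _ _).symm.add_right _))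
  simp only [H] at e
  by_cases c : (y + n ^ 2) % M = y % M
  · rw [c] at e
    have := Nat.div_add_mod y M
    have := Nat.div_add_mod (y + n ^ 2) M
    have : 0 < n ^ 2 := by positivity
    have : (y + n ^ 2) / M = y / M := by omega
    simp_all
  · have := e2 c
    omega

/-- Height systems at all powers. -/
def HP (M T s C : ℕ) : Prop := ∀ k, HS (M ^ k) (C * T ^ k) (s ^ k)

theorem HS.hp {m t s : ℕ} (h : HS (m ^ 2) t s) (c T : ℕ) (hc : t ^ c ≤ T) :
    HP (m ^ (2 * c)) T (s ^ c) 1 := fun k => by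
  have := (h.pow (c * k)).mono (T' := 1 * T ^ k) (by
    rw [one_mul, pow_mul]; exact Nat.pow_le_pow_left hc k)
  rwa [← pow_mul, ← mul_assoc, pow_mul, pow_mul s] at this

theorem HP.crt {M T s C M' s' C' : ℕ} (h : HP M T s C) (h' : HP M' T s' C') (co : M.Coprime M') :
    HP (M * M') T (s * s') (C + C') := fun k => by
  simpa only [mul_pow, add_mul] using (h k).crt (h' k) (co.pow k k)

theorem exists_hp : ∃ M T s C : ℕ, HP M T s C ∧ 1 < M * T ∧ (M * T) ^ 87 ≤ s ^ 115 := by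
  have a2 : HS (4 ^ 2) 6 10 := HS.of_list 16 6
    [(0, 4), (1, 5), (3, 0), (6, 0), (7, 1), (8, 2), (9, 5), (11, 2), (12, 3), (14, 0)]
    (by decide) (by decide) (by decide) (by decide +kernel)
  have a3 := (HS.of_list 3 2 [(0, 1), (2, 0)]
    (by decide) (by decide) (by decide) (by decide +kernel)).sq (by decide +kernel)
  have a7 := (HS.of_list 7 3 [(0, 2), (3, 1), (6, 0)]
    (by decide) (by decide) (by decide) (by decide +kernel)).sq (by decide +kernel)
  have a11 := (HS.of_list 11 4 [(3, 1), (5, 0), (6, 3), (8, 2)]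
    (by decide) (by decide) (by decide) (by decide +kernel)).sq (by decide +kernel)
  have a19 := (HS.of_list 19 5 [(2, 4), (10, 0), (14, 2), (15, 3), (17, 1)]
    (by decide) (by decide) (by decide) (by decide +kernel)).sq (by decide +kernel)
  have a31 := (HS.of_list 31 7 [(9, 3), (20, 0), (21, 2), (24, 1), (25, 5), (28, 4), (29, 6)]
    (by decide) (by decide) (by decide) (by decide +kernel)).sq (by decide +kernel)
  have a59 := (HS.of_list 59 9
    [(8, 7), (16, 0), (19, 4), (21, 3), (28, 8), (38, 5), (41, 6), (51, 1), (52, 2)]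
    (by decide) (by decide) (by decide) (by decide +kernel)).sq (by decide +kernel)
  have a115 := (HS.of_list 115 6 [(1, 0), (19, 1), (25, 5), (27, 1), (28, 5), (36, 4), (39, 0),
    (43, 2), (55, 3), (68, 4), (76, 2), (102, 3)]
    (by decide) (by decide) (by decide) (by decide +kernel)).sq (by decide +kernel)
  have a43 := (HS.of_list 43 7 [(16, 6), (18, 2), (19, 3), (21, 0), (35, 5), (38, 1), (42, 4)]
    (by decide) (by decide) (by decide) (by decide +kernel)).sq (by decide +kernel)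
  have a71 := (HS.of_list 71 9
    [(3, 0), (13, 4), (18, 6), (19, 8), (41, 2), (52, 1), (53, 5), (60, 3), (61, 7)]
    (by decide) (by decide) (by decide) (by decide +kernel)).sq (by decide +kernel)
  have a103 := (HS.of_list 103 11 [(0, 4), (2, 6), (18, 7), (34, 8), (39, 3), (45, 2), (52, 10),
    (87, 0), (91, 5), (96, 1), (100, 9)]
    (by decide) (by decide) (by decide) (by decide +kernel)).sq (by decide +kernel)
  exact ⟨_, 3 ^ 62, _, _, ((((((((((a2.hp 38 _ (by decide +kernel)).crt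
    (a3.hp 98 _ (by decide +kernel)) (by decide +kernel)).crt
    (a7.hp 62 _ (by decide +kernel)) (by decide +kernel)).crt
    (a11.hp 49 _ (by decide +kernel)) (by decide +kernel)).crt
    (a19.hp 42 _ (by decide +kernel)) (by decide +kernel)).crt
    (a31.hp 35 _ (by decide +kernel)) (by decide +kernel)).crt
    (a59.hp 31 _ (by decide +kernel)) (by decide +kernel)).crt
    (a115.hp 38 _ (by decide +kernel)) (by decide +kernel)).crt
    (a43.hp 35 _ (by decide +kernel)) (by decide +kernel)).crt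
    (a71.hp 31 _ (by decide +kernel)) (by decide +kernel)).crt
    (a103.hp 28 _ (by decide +kernel)) (by decide +kernel), by decide +kernel, by decide +kernel⟩

theorem main : ∃ c : ℝ, 0 < c ∧ ∀ N : ℕ, 1 ≤ N → ∃ A : Finset ℕ, (∀ x ∈ A, x < N) ∧
    c * (N : ℝ) ^ (87 / 115 : ℝ) ≤ A.card ∧ ∀ x ∈ A, ∀ y ∈ A, ∀ n : ℕ, 1 ≤ n → x ≠ y + n ^ 2 := by
  obtain ⟨M, T, s, C, h, h1, h2⟩ := exists_hp
  have p : (0 : ℝ) < (M * T : ℕ) := by exact_mod_cast Nat.zero_lt_of_lt h1
  have T0 : 0 < T := Nat.pos_of_mul_pos_left (Nat.zero_lt_of_lt h1)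
  have h3 : ((M * T : ℕ) : ℝ) ^ (87 / 115 : ℝ) ≤ s := by
    rw [show (87 / 115 : ℝ) = (87 : ℕ) * ((115 : ℕ) : ℝ)⁻¹ by norm_num, Real.rpow_natCast_mul p.le,
      Real.rpow_inv_le_iff_of_pos (by positivity) (by positivity) (by norm_num), Real.rpow_natCast]
    exact_mod_cast h2
  refine ⟨(((M * T : ℕ) : ℝ) ^ (87 / 115 : ℝ) * (1 + C))⁻¹, by positivity, fun N hN => ?_⟩
  set k := Nat.log (M * T) N
  obtain ⟨A, a1, a2, a3⟩ := (h k).free (T ^ k)
  refine ⟨A, fun x hx => (a1 x hx).trans_le ?_, ?_, a3⟩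
  · rw [← mul_pow]
    exact Nat.pow_log_le_self _ (by omega)
  · have b1 : s ^ k ≤ (1 + C) * A.card := Nat.le_of_mul_le_mul_right (by linarith) (pow_pos T0 k)
    have b2 : (N : ℝ) ≤ ((M * T : ℕ) : ℝ) ^ (k + 1) := by
      exact_mod_cast (Nat.lt_pow_succ_log_self h1 N).le
    have b3 := Real.rpow_le_rpow (by positivity) b2 (show (0 : ℝ) ≤ 87 / 115 by norm_num)
    rw [← Real.rpow_natCast, ← Real.rpow_mul p.le, mul_comm _ (87 / 115 : ℝ), Real.rpow_mul p.le,
      Real.rpow_natCast, pow_succ'] at b3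
    rw [inv_mul_le_iff₀ (by positivity), mul_assoc]
    refine b3.trans (mul_le_mul_of_nonneg_left ((pow_le_pow_left₀ (by positivity) h3 k).trans ?_)
      (by positivity))
    exact_mod_cast b1

end Vale.Agent.P042
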